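import Mathlib.Analysis.SpecialFunctions.Log.Basic
import Mathlib.Algebra.BigOperators.Fin
import Mathlib.Data.Nat.GCD.BigOperators
import Mathlib.Tactic

/-! Tree induction: strict subadditivity at every node forces a fat leaf. -/

namespace Vale.Agent.P015.H83

open Finset

theorem prod_le_all {k : ℕ} {M : Fin k → ℕ} (h : ∀ i, 1 ≤ M i) (b : Fin k) : M b ≤ ∏ i, M i := by
  calc M b = ∏ i ∈ ({b} : Finset (Fin k)), M i := by simp
    _ ≤ ∏ i, M i := Finset.prod_le_prod_of_subset_of_one_le' (Finset.subset_univ _)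
        (fun i _ _ => h i)

/-- Iterating strict subadditivity along an `r`-ary tree of depth `T`. -/
theorem tree_aux {r : ℕ} (hr : 1 ≤ r) {c δ y₀ Y : ℝ} (hδ : 0 ≤ δ)
    (Good : ℕ → Prop) (f : ℕ → ℝ)
    (hGood : ∀ (k : ℕ) (M : Fin k → ℕ), (Pairwise fun i j => (M i).Coprime (M j)) →
      (∀ i, Good (M i)) → Good (∏ i, M i))
    (SS : ∀ y : ℝ, y₀ ≤ y → ∀ M : Fin r → ℕ, (Pairwise fun i j => (M i).Coprime (M j)) →
      (∀ b, Real.exp y ≤ M b) → (∀ b, (M b : ℝ) ≤ Real.exp (2 * y)) → (∀ b, Good (M b)) →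
      ((∏ b, M b : ℕ) : ℝ) ≤ Y →
      (∀ b, f (M b) ≤ (1 - c) * Real.log (M b)) →
      f (∏ b, M b) ≤ ∑ b, f (M b) - δ * ∑ b, Real.log (M b)) :
    ∀ (T : ℕ) (y : ℝ), 0 ≤ y → y₀ ≤ y → ∀ (M : Fin (r ^ T) → ℕ),
      (Pairwise fun i j => (M i).Coprime (M j)) →
      (∀ i, Real.exp y ≤ M i) → (∀ i, (M i : ℝ) ≤ Real.exp (2 * y)) → (∀ i, Good (M i)) →
      ((∏ i, M i : ℕ) : ℝ) ≤ Y →
      (∀ i, f (M i) ≤ (1 - c) * Real.log (M i)) →
      f (∏ i, M i) ≤ (1 - c - T * δ) * ∑ i, Real.log (M i) := by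
  intro T
  induction T with
  | zero =>
    intro y hy hy0 M hM h1 h2 hg hN ht
    have hu : (Finset.univ : Finset (Fin (r ^ 0))) = {⟨0, by simp⟩} := by
      ext i
      simp only [Finset.mem_univ, Finset.mem_singleton, true_iff]
      have := i.2
      simp only [pow_zero] at this
      exact Fin.ext (by simp only; omega)
    rw [hu, Finset.prod_singleton, Finset.sum_singleton]
    have := ht ⟨0, by simp⟩
    simpa using this
  | succ T ih =>
    intro y hy hy0 M hM h1 h2 hg hN ht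
    -- the children
    have hcard : r ^ (T + 1) = r * r ^ T := by rw [pow_succ]; ring
    let e : Fin r × Fin (r ^ T) ≃ Fin (r ^ (T + 1)) :=
      finProdFinEquiv.trans (finCongr hcard.symm)
    obtain ⟨M', hM'⟩ : ∃ M' : Fin r → ℕ, ∀ b, M' b = ∏ j, M (e (b, j)) := ⟨_, fun _ => rfl⟩
    have hprod : ∏ i, M i = ∏ b, M' b := by
      rw [← e.prod_comp, Fintype.prod_prod_type]
      exact Finset.prod_congr rfl fun b _ => (hM' b).symm
    have hpos : ∀ i, (1 : ℝ) ≤ M i := fun i => (Real.one_le_exp hy).trans (h1 i)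
    have hposN : ∀ i, 1 ≤ M i := fun i => by exact_mod_cast hpos i
    have hpos' : ∀ i, (0 : ℝ) < M i := fun i => lt_of_lt_of_le one_pos (hpos i)
    have hposM' : ∀ b, 1 ≤ M' b := by
      intro b
      rw [hM' b]
      exact Finset.one_le_prod' (fun j _ => hposN _)
    have hsumlog : ∀ b, Real.log (M' b) = ∑ j, Real.log (M (e (b, j))) := by
      intro b
      rw [hM' b, Nat.cast_prod, Real.log_prod]
      intro j _
      exact (hpos' _).ne'
    have hsum : ∑ i, Real.log (M i) = ∑ b, Real.log (M' b) := by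
      rw [← e.sum_comp (fun i => Real.log (M i)), Fintype.sum_prod_type]
      exact Finset.sum_congr rfl fun b _ => (hsumlog b).symm
    have hrT : (1 : ℝ) ≤ (r : ℝ) ^ T := one_le_pow₀ (by exact_mod_cast hr)
    have hrT' : ∀ b, Real.log (M' b) = ∑ j : Fin (r ^ T), Real.log (M (e (b, j))) := hsumlog
    have hNb : ∀ b, ((M' b : ℕ) : ℝ) ≤ Y := by
      intro b
      refine le_trans ?_ hN
      rw [hprod]
      exact_mod_cast prod_le_all hposM' b
    have hchild : ∀ b, f (M' b) ≤ (1 - c - T * δ) * Real.log (M' b) := by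
      intro b
      rw [hsumlog b, hM' b]
      refine ih y hy hy0 (fun j => M (e (b, j)))
        (fun i j hij => hM (fun h => hij (by
          have := e.injective h
          exact (Prod.ext_iff.1 this).2)))
        (fun j => h1 _) (fun j => h2 _) (fun j => hg _) ?_ (fun j => ht _)
      rw [← hM' b]
      exact hNb b
    have hcop : Pairwise fun b b' => (M' b).Coprime (M' b') := by
      intro b b' hb
      rw [hM' b, hM' b']
      refine Nat.Coprime.prod_left fun j _ => Nat.Coprime.prod_right fun j' _ => ?_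
      exact hM (fun h => hb (Prod.ext_iff.1 (e.injective h)).1)
    have hlog1 : ∀ i, y ≤ Real.log (M i) := fun i => by
      rw [Real.le_log_iff_exp_le (hpos' i)]; exact h1 i
    have hlog2 : ∀ i, Real.log (M i) ≤ 2 * y := fun i => by
      rw [Real.log_le_iff_le_exp (hpos' i)]; exact h2 i
    have hM'0 : ∀ b, (0 : ℝ) < M' b := fun b => by exact_mod_cast hposM' b
    have hlog0 : ∀ b, 0 ≤ Real.log (M' b) := fun b => Real.log_nonneg (by exact_mod_cast hposM' b)
    have hss := SS ((r : ℝ) ^ T * y) (hy0.trans (by nlinarith)) M' hcop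
      (fun b => by
        rw [← Real.le_log_iff_exp_le (hM'0 b), hsumlog b]
        calc (r : ℝ) ^ T * y = ∑ _j : Fin (r ^ T), y := by
              rw [Finset.sum_const, Finset.card_univ, Fintype.card_fin, nsmul_eq_mul]; push_cast; ring
          _ ≤ _ := Finset.sum_le_sum fun j _ => hlog1 _)
      (fun b => by
        rw [← Real.log_le_iff_le_exp (hM'0 b), hsumlog b]
        calc ∑ j, Real.log (M (e (b, j))) ≤ ∑ _j : Fin (r ^ T), 2 * y :=
              Finset.sum_le_sum fun j _ => hlog2 _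
          _ = 2 * ((r : ℝ) ^ T * y) := by
              rw [Finset.sum_const, Finset.card_univ, Fintype.card_fin, nsmul_eq_mul]; push_cast; ring)
      (fun b => by
        rw [hM' b]
        exact hGood _ _ (fun i j hij => hM (fun h => hij (by
          have := e.injective h
          exact (Prod.ext_iff.1 this).2))) (fun j => hg _))
      (by rw [← hprod]; exact hN)
      (fun b => (hchild b).trans (mul_le_mul_of_nonneg_right (by
        have : 0 ≤ (T : ℝ) * δ := by positivity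
        linarith) (hlog0 b)))
    rw [hprod, hsum]
    refine hss.trans ?_
    have hs : ∑ b, f (M' b) ≤ (1 - c - T * δ) * ∑ b, Real.log (M' b) := by
      rw [Finset.mul_sum]
      exact Finset.sum_le_sum fun b _ => hchild b
    push_cast
    nlinarith [hs]

/-- A tree of depth `T > (1 - c) / δ` has a fat leaf. -/
theorem tree_fat {r : ℕ} (hr : 1 ≤ r) {c δ y₀ Y : ℝ} (hδ : 0 < δ)
    (Good : ℕ → Prop) (f : ℕ → ℝ) (hf : ∀ M, 0 ≤ f M)
    (hGood : ∀ (k : ℕ) (M : Fin k → ℕ), (Pairwise fun i j => (M i).Coprime (M j)) →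
      (∀ i, Good (M i)) → Good (∏ i, M i))
    (SS : ∀ y : ℝ, y₀ ≤ y → ∀ M : Fin r → ℕ, (Pairwise fun i j => (M i).Coprime (M j)) →
      (∀ b, Real.exp y ≤ M b) → (∀ b, (M b : ℝ) ≤ Real.exp (2 * y)) → (∀ b, Good (M b)) →
      ((∏ b, M b : ℕ) : ℝ) ≤ Y →
      (∀ b, f (M b) ≤ (1 - c) * Real.log (M b)) →
      f (∏ b, M b) ≤ ∑ b, f (M b) - δ * ∑ b, Real.log (M b))
    {T : ℕ} (hT : 1 - c < T * δ) {y : ℝ} (hy : 0 < y) (hy0 : y₀ ≤ y) (M : Fin (r ^ T) → ℕ)
    (hM : Pairwise fun i j => (M i).Coprime (M j))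
    (h1 : ∀ i, Real.exp y ≤ M i) (h2 : ∀ i, (M i : ℝ) ≤ Real.exp (2 * y)) (hg : ∀ i, Good (M i))
    (hN : ((∏ i, M i : ℕ) : ℝ) ≤ Y) :
    ∃ i, (1 - c) * Real.log (M i) < f (M i) := by
  by_contra hcon
  push Not at hcon
  have h := tree_aux hr hδ.le Good f hGood SS T y hy.le hy0 M hM h1 h2 hg hN hcon
  have hpos' : ∀ i, (0 : ℝ) < M i := fun i => lt_of_lt_of_le (Real.exp_pos _) (h1 i)
  have hlog1 : ∀ i, y ≤ Real.log (M i) := fun i => by
    rw [Real.le_log_iff_exp_le (hpos' i)]; exact h1 i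
  have hne : Nonempty (Fin (r ^ T)) := ⟨⟨0, pow_pos (by omega) _⟩⟩
  have hs : 0 < ∑ i, Real.log (M i) :=
    Finset.sum_pos (fun i _ => hy.trans_le (hlog1 i)) Finset.univ_nonempty
  have h3 := hf (∏ i, M i)
  nlinarith

end Vale.Agent.P015.H83
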